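import Vale.Agent.P247.H574.Sta2

/-!
# P247, stage 2, layer C, package Z: statements

`C = S.supp` smooth with a holomorphic one-form without zeros gives the embedded `J`-torus.

* `TORI` (helper690): every point of `C` lies on a `J`-torus which is open in `C`.
* `CLASS`: the class of `T` is the sum of the classes of finitely many of these tori.
* `CONE`: light cone argument, there is only one torus and its class is `e 2 ∧ e 3`.
* `LAST`: a torus of the class `e 2 ∧ e 3` gives `JT`.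
-/

open scoped ContDiff Topology
open Set MeasureTheory Filter Metric

noncomputable section

namespace Vale.Agent.P247.H690.END

open Vale.Agent.P247.H74 Vale.Agent.P247.H574

/-- near `x` the current is `k` times one embedded `J`-disc `u` through `x` -/
structure RegD {D : Data} (S : ICur D) (x : R4) (u : ℂ → R4) (k : ℕ) (ε : ℝ) : Prop where
  pos : 0 < ε
  one : 1 ≤ k
  disc : JDisc D u
  zero : u 0 = x
  imm : ∀ z ∈ ball (0 : ℂ) 2, fderiv ℝ u z 1 ≠ 0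
  inj : InjOn u (ball (0 : ℂ) 2)
  far : ∀ z ∈ ball (0 : ℂ) 2, 1 ≤ ‖z‖ → ε ≤ dist (u z) x
  supp : ∀ y ∈ ball x ε, y ∈ S.supp ↔ ∃ z ∈ ball (0 : ℂ) 1, u z = y
  val : ∀ φ, CF φ → tsupport φ ⊆ ball x ε →
    S.T φ = (k : ℝ) * ∫ z in ball (0 : ℂ) 1, φ (u z) (fderiv ℝ u z 1) (fderiv ℝ u z Complex.I)

/-- near every point of the support the current is a multiple of an embedded disc, on which the
form `th` is holomorphic and does not vanish at the centre -/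
structure Form {D : Data} (S : ICur D) (th : R4 → R4 →L[ℝ] ℂ) : Prop where
  per : ∀ x ∈ S.supp, ∀ k : Fin 4 → ℤ, th (tr k x) = th x
  hol : ∀ x ∈ S.supp, ∃ (u : ℂ → R4) (k : ℕ) (ε : ℝ) (h : ℂ → ℂ), RegD S x u k ε ∧
    DifferentiableOn ℂ h (ball 0 1) ∧ h 0 ≠ 0 ∧ ∀ z ∈ ball (0 : ℂ) 1,
      th (u z) (fderiv ℝ u z 1) = h z ∧ th (u z) (fderiv ℝ u z Complex.I) = Complex.I * h z

/-- a `J`-torus, embedded mod `ℤ⁴`, open in `C` -/
structure Tor (D : Data) (C : Set R4) where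
  i : P2 → R4
  n : Fin 2 → Fin 4 → ℤ
  smooth : ContDiff ℝ ∞ i
  mem : ∀ p, i p ∈ C
  per₁ : ∀ p : P2, i (p.1 + 1, p.2) = tr (n 0) (i p)
  per₂ : ∀ p : P2, i (p.1, p.2 + 1) = tr (n 1) (i p)
  inj : ∀ (p q : P2) (k : Fin 4 → ℤ), i p = tr k (i q) → ∃ a b : ℤ, p = (q.1 + a, q.2 + b)
  ne : ∀ p, ds i p ≠ 0
  hol : ∀ p, ∃ a b : ℝ, 0 < b ∧ dt i p = a • ds i p + b • D.J (i p) (ds i p)
  opn : ∀ p, ∀ ρ > 0, i '' ball p ρ ∈ 𝓝[C] (i p)

/-- `TORI` -/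
def TORI_statement : Prop := ∀ (D : Data) (S : ICur D) (th : R4 → R4 →L[ℝ] ℂ), Form S th →
  ∀ x ∈ S.supp, ∃ T : Tor D S.supp, T.i 0 = x

/-- the lattice vector `n` in `ℝ⁴` -/
def vz (n : Fin 4 → ℤ) : R4 := fun i => (n i : ℝ)

/-- `CLASS` -/
def CLASS_statement : Prop := ∀ (D : Data) (S : ICur D),
  (∀ x ∈ S.supp, ∃ (u : ℂ → R4) (k : ℕ) (ε : ℝ), RegD S x u k ε) →
  (∀ x ∈ S.supp, ∃ T : Tor D S.supp, T.i 0 = x) →
  ∃ (M : ℕ) (T : Fin M → Tor D S.supp) (m : Fin M → ℕ), (∀ i, 1 ≤ m i) ∧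
    ∀ κ : F2, (∀ u, κ u u = 0) →
      κ (e 2) (e 3) = ∑ i, (m i : ℝ) * κ (vz ((T i).n 0)) (vz ((T i).n 1))

/-- the classes of a torus: Stokes -/
def PAIR_statement : Prop := ∀ (D : Data) (C : Set R4) (T : Tor D C),
  (∀ j, (D.η j).κ (vz (T.n 0)) (vz (T.n 1)) = 0) ∧ 0 < D.om.κ (vz (T.n 0)) (vz (T.n 1))

/-- `CONE`: linear algebra -/
def CONE_statement : Prop := ∀ (D : Data), Good D → ∀ (M : ℕ) (n : Fin M → Fin 2 → Fin 4 → ℤ)
  (m : Fin M → ℕ), (∀ i, 1 ≤ m i) →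
  (∀ i j, (D.η j).κ (vz (n i 0)) (vz (n i 1)) = 0) →
  (∀ i, 0 < D.om.κ (vz (n i 0)) (vz (n i 1))) →
  (∀ κ : F2, (∀ u, κ u u = 0) → κ (e 2) (e 3) = ∑ i, (m i : ℝ) * κ (vz (n i 0)) (vz (n i 1))) →
  ∃ i, ∀ κ : F2, (∀ u, κ u u = 0) → κ (vz (n i 0)) (vz (n i 1)) = κ (e 2) (e 3)

/-- `LAST` -/
def LAST_statement : Prop := ∀ (D : Data) (C : Set R4) (T : Tor D C),
  (∀ κ : F2, (∀ u, κ u u = 0) → κ (vz (T.n 0)) (vz (T.n 1)) = κ (e 2) (e 3)) →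
  ∃ (f : P2 → R4) (τ : ℂ), JT D f τ ∧ Imm f ∧ Inj f

/-- `Z`: the whole package -/
def Z_statement : Prop := ∀ (D : Data), Good D → ∀ (S : ICur D) (th : R4 → R4 →L[ℝ] ℂ),
  Form S th → ∃ (f : P2 → R4) (τ : ℂ), JT D f τ ∧ Imm f ∧ Inj f

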