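import Vale.Agent.P247.H690.END.Lat
import Vale.Agent.P247.H264.Kit

/-!
# P247, package END: the leaf of a smooth support with a holomorphic form without zeros
-/

open scoped ContDiff Topology
open Set MeasureTheory Filter Metric

noncomputable section

namespace Vale.Agent.P247.H690.END

open Vale.Agent.P247.H74 Vale.Agent.P247.H574

/-- a local left inverse of an immersion -/
theorem exists_local_left' {E : Type*} [NormedAddCommGroup E] [NormedSpace ℝ E]
    [FiniteDimensional ℝ E] {g : E → R4} {T : E →L[ℝ] R4} {x₀ : E} (hg : ContDiffAt ℝ 1 g x₀)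
    (hT : HasFDerivAt g T x₀) (hinj : ∀ v, T v = 0 → v = 0) :
    ∃ P : R4 → E, ∃ δ > 0, ∀ w ∈ ball x₀ δ, P (g w) = w ∧ DifferentiableAt ℝ P (g w) := by
  have : CompleteSpace E := FiniteDimensional.complete ℝ E
  have hinj' : Function.Injective T := by
    intro a b hab
    have := hinj (a - b) (by rw [map_sub, hab, sub_self])
    exact sub_eq_zero.1 this
  obtain ⟨S, hS⟩ := T.toLinearMap.exists_leftInverse_of_injective (LinearMap.ker_eq_bot.2 hinj')
  set S' : R4 →L[ℝ] E := LinearMap.toContinuousLinearMap S with hS'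
  have hST : ∀ v, S' (T v) = v := fun v => LinearMap.congr_fun hS v
  set f : E → E := fun v => S' (g v) with hf
  have hfs : ContDiffAt ℝ 1 f x₀ := S'.contDiff.contDiffAt.comp _ hg
  have hfd : HasFDerivAt f ((ContinuousLinearEquiv.refl ℝ E : E ≃L[ℝ] E) : E →L[ℝ] E) x₀ := by
    have h1 := S'.hasFDerivAt.comp x₀ hT
    have h2 : S'.comp T = ((ContinuousLinearEquiv.refl ℝ E : E ≃L[ℝ] E) : E →L[ℝ] E) :=
      ContinuousLinearMap.ext fun v => hST v
    rw [h2] at h1
    exact h1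
  have hst : HasStrictFDerivAt f
      ((ContinuousLinearEquiv.refl ℝ E : E ≃L[ℝ] E) : E →L[ℝ] E) x₀ :=
    hfs.hasStrictFDerivAt' hfd (by simp)
  set Q : E → E := hfs.localInverse hfd (by simp) with hQ
  have hQs : ContDiffAt ℝ 1 Q (f x₀) := hfs.to_localInverse hfd (by simp)
  have h1 : ∀ᶠ w in 𝓝 x₀, Q (f w) = w := hst.eventually_left_inverse
  have h2 : ∀ᶠ y in 𝓝 (f x₀), DifferentiableAt ℝ Q y := by
    have := hQs.eventually (by simp)
    filter_upwards [this] with y hy using hy.differentiableAt (by simp)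
  have h3 : ∀ᶠ w in 𝓝 x₀, DifferentiableAt ℝ Q (f w) :=
    hfd.continuousAt.eventually h2
  obtain ⟨δ, hδ, h4⟩ := Metric.eventually_nhds_iff_ball.1 (h1.and h3)
  refine ⟨fun x => Q (S' x), δ, hδ, fun w hw => ⟨(h4 w hw).1, ?_⟩⟩
  exact DifferentiableAt.comp (g w) (h4 w hw).2 S'.differentiableAt

/-- the tangent plane does not depend on the parametrisation -/
theorem tangent {C : Set R4} {u : ℂ → R4} (hu : ContDiffAt ℝ 1 u 0)
    (hinj : ∀ ζ, fderiv ℝ u 0 ζ = 0 → ζ = 0) (hn : ∀ δ > 0, u '' ball 0 δ ∈ 𝓝[C] (u 0))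
    {v : ℂ → R4} {s : ℂ} {T : ℂ →L[ℝ] R4} (hv : HasFDerivAt v T s) (hvs : v s = u 0)
    (hvC : ∀ᶠ z in 𝓝 s, v z ∈ C) (ζ : ℂ) : ∃ ζ', T ζ = fderiv ℝ u 0 ζ' := by
  have hd : HasFDerivAt u (fderiv ℝ u 0) 0 := (hu.differentiableAt (by simp)).hasFDerivAt
  obtain ⟨P, δ, hδ, hP⟩ := exists_local_left' hu hd hinj
  have h1 : Tendsto v (𝓝 s) (𝓝[C] (u 0)) := by
    refine tendsto_nhdsWithin_iff.2 ⟨?_, hvC⟩
    rw [← hvs]
    exact hv.continuousAt
  have h2 : ∀ᶠ z in 𝓝 s, v z = u (P (v z)) := by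
    filter_upwards [h1 (hn δ hδ)] with z hz
    obtain ⟨w, hw, hwz⟩ := hz
    rw [← hwz, (hP w hw).1]
  have h3 : DifferentiableAt ℝ P (v s) := by
    rw [hvs]
    exact (hP 0 (mem_ball_self hδ)).2
  have h4 : P (v s) = 0 := by
    rw [hvs]
    exact (hP 0 (mem_ball_self hδ)).1
  have h5 : HasFDerivAt (fun z => P (v z)) ((fderiv ℝ P (v s)).comp T) s :=
    h3.hasFDerivAt.comp s hv
  have h6 : HasFDerivAt (fun z => u (P (v z)))
      ((fderiv ℝ u 0).comp ((fderiv ℝ P (v s)).comp T)) s := by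
    have h7 : HasFDerivAt u (fderiv ℝ u 0) (P (v s)) := by rw [h4]; exact hd
    exact h7.comp s h5
  have h8 := hv.unique (h6.congr_of_eventuallyEq h2)
  refine ⟨fderiv ℝ P (v s) (T ζ), ?_⟩
  have h9 := congrArg (fun L : ℂ →L[ℝ] R4 => L ζ) h8
  exact h9

section supp

variable {D : Data} (S : ICur D)

theorem supp_closed : IsClosed S.supp := by
  rw [← isOpen_compl_iff, Metric.isOpen_iff]
  intro x hx
  have hx' : ∃ ε > 0, ∀ φ, CF φ → tsupport φ ⊆ ball x ε → S.T φ = 0 := by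
    by_contra hcon
    push Not at hcon
    apply hx
    intro ε hε
    obtain ⟨φ, h1, h2, h3⟩ := hcon ε hε
    exact ⟨φ, h1, h2, h3⟩
  obtain ⟨ε, hε, h⟩ := hx'
  refine ⟨ε / 2, by positivity, fun y hy hys => ?_⟩
  obtain ⟨φ, h1, h2, h3⟩ := hys (ε / 2) (by positivity)
  refine h3 (h φ h1 (h2.trans fun z hz => ?_))
  rw [mem_ball] at hz hy ⊢
  linarith [dist_triangle z y x]

/-- translation of a test form -/
theorem CF.translate {φ : R4 → F2} (h : CF φ) (k : Fin 4 → ℤ) : CF fun x => φ (tr k x) := by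
  refine ⟨h.cont.comp (tr_continuous k), ?_, fun x u => h.alt _ u⟩
  have h1 : HasCompactSupport (φ ∘ (Homeomorph.addRight fun i => (k i : ℝ))) :=
    HasCompactSupport.comp_homeomorph (M := F2) h.supp _
  have h2 : (φ ∘ (Homeomorph.addRight fun i => (k i : ℝ))) = fun x => φ (tr k x) := by
    funext x
    simp only [Function.comp_apply, Homeomorph.coe_addRight, tr_eq]
  rw [← h2]
  exact h1

theorem supp_tr {x : R4} (hx : x ∈ S.supp) (k : Fin 4 → ℤ) : tr k x ∈ S.supp := by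
  intro ε hε
  obtain ⟨φ, h1, h2, h3⟩ := hx ε hε
  refine ⟨fun y => φ (tr (-k) y), CF.translate h1 (-k), ?_, ?_⟩
  · intro y hy
    have hcl : IsClosed {y : R4 | tr (-k) y ∈ tsupport φ} :=
      (isClosed_tsupport φ).preimage (tr_continuous _)
    have h4 : tsupport (fun y => φ (tr (-k) y)) ⊆ {y : R4 | tr (-k) y ∈ tsupport φ} :=
      closure_minimal (fun z hz => subset_tsupport φ hz) hcl
    have h5 := h2 (h4 hy)
    rw [mem_ball, dist_eq_norm] at h5 ⊢
    have h6 : y = tr k (tr (-k) y) := by rw [tr_add, add_neg_cancel, tr_zero]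
    rw [h6, tr_sub]
    exact h5
  · rw [S.per φ h1 (-k)]
    exact h3

end supp

/-- neighbourhoods in the support -/
theorem RegD.image_mem {D : Data} {S : ICur D} {x : R4} {u : ℂ → R4} {k : ℕ} {ε : ℝ}
    (h : RegD S x u k ε) {δ : ℝ} (hδ : 0 < δ) : u '' ball 0 δ ∈ 𝓝[S.supp] (u 0) := by
  -- points far from the centre
  have hK : IsCompact (closedBall (0 : ℂ) 1 \ ball 0 δ) :=
    (isCompact_closedBall 0 1).diff isOpen_ball
  have hsub : closedBall (0 : ℂ) 1 ⊆ ball 0 2 := closedBall_subset_ball (by norm_num)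
  have hcont : ContinuousOn u (closedBall (0 : ℂ) 1) := h.disc.smooth.continuousOn.mono hsub
  have hKu : IsCompact (u '' (closedBall (0 : ℂ) 1 \ ball 0 δ)) :=
    hK.image_of_continuousOn (hcont.mono sdiff_subset)
  have hx : u 0 ∉ u '' (closedBall (0 : ℂ) 1 \ ball 0 δ) := by
    rintro ⟨z, hz, hz0⟩
    have := h.inj (hsub hz.1) (mem_ball_self (by norm_num)) hz0
    rw [this] at hz
    exact hz.2 (mem_ball_self hδ)
  have hxε : ball (u 0) ε ∈ 𝓝 (u 0) := ball_mem_nhds _ h.pos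
  rw [mem_nhdsWithin_iff_eventually]
  filter_upwards [hxε, hKu.isClosed.isOpen_compl.mem_nhds hx] with y hy1 hy2 hyS
  rw [h.zero] at hy1
  obtain ⟨z, hz, rfl⟩ := (h.supp y hy1).1 hyS
  refine ⟨z, ?_, rfl⟩
  by_contra hzδ
  exact hy2 ⟨z, ⟨ball_subset_closedBall hz, hzδ⟩, rfl⟩

theorem RegD.fderiv_inj {D : Data} {S : ICur D} {x : R4} {u : ℂ → R4} {k : ℕ} {ε : ℝ}
    (h : RegD S x u k ε) {z : ℂ} (hz : z ∈ ball (0 : ℂ) 2) {ζ : ℂ} (h0 : fderiv ℝ u z ζ = 0) :
    ζ = 0 := by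
  have h1 : fderiv ℝ u z ζ = ζ.re • fderiv ℝ u z 1 + ζ.im • D.J (u z) (fderiv ℝ u z 1) := by
    rw [← h.disc.hol z hz, ← map_smul, ← map_smul, ← map_add]
    congr 1
    apply Complex.ext <;> simp
  set a := fderiv ℝ u z 1 with ha
  have ha0 : a ≠ 0 := h.imm z hz
  rw [h1] at h0
  have h2 : ζ.re • D.J (u z) a - ζ.im • a = 0 := by
    have := congrArg (D.J (u z)) h0
    rw [map_add, map_smul, map_smul, D.J_sq, map_zero] at this
    rw [← this]
    module
  have h3 : (ζ.re ^ 2 + ζ.im ^ 2) • a = 0 := by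
    have h4 : (ζ.re ^ 2 + ζ.im ^ 2) • a = ζ.re • (ζ.re • a + ζ.im • D.J (u z) a) -
        ζ.im • (ζ.re • D.J (u z) a - ζ.im • a) := by module
    rw [h4, h0, h2]
    simp
  rcases smul_eq_zero.1 h3 with h4 | h4
  · apply Complex.ext
    · simp only [Complex.zero_re]; nlinarith [sq_nonneg ζ.re, sq_nonneg ζ.im]
    · simp only [Complex.zero_im]; nlinarith [sq_nonneg ζ.re, sq_nonneg ζ.im]
  · exact absurd h4 ha0

theorem RegD.J_fderiv {D : Data} {S : ICur D} {x : R4} {u : ℂ → R4} {k : ℕ} {ε : ℝ}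
    (h : RegD S x u k ε) {z : ℂ} (hz : z ∈ ball (0 : ℂ) 2) (ζ : ℂ) :
    D.J (u z) (fderiv ℝ u z ζ) = fderiv ℝ u z (Complex.I * ζ) := by
  have h1 : ∀ ζ : ℂ, fderiv ℝ u z ζ = ζ.re • fderiv ℝ u z 1 +
      ζ.im • D.J (u z) (fderiv ℝ u z 1) := by
    intro ζ
    rw [← h.disc.hol z hz, ← map_smul, ← map_smul, ← map_add]
    congr 1
    apply Complex.ext <;> simp
  rw [h1 ζ, h1 (Complex.I * ζ), map_add, map_smul, map_smul, D.J_sq]
  simp only [Complex.mul_re, Complex.I_re, Complex.I_im, Complex.mul_im]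
  module

/-- values of the form -/
theorem th_val {th : R4 →L[ℝ] ℂ} {T : ℂ →L[ℝ] R4} {a : ℂ} (h1 : th (T 1) = a)
    (h2 : th (T Complex.I) = Complex.I * a) (ζ : ℂ) : th (T ζ) = a * ζ := by
  have h3 : T ζ = ζ.re • T 1 + ζ.im • T Complex.I := by
    rw [← map_smul, ← map_smul, ← map_add]
    congr 1
    apply Complex.ext <;> simp
  rw [h3, map_add, map_smul, map_smul, h1, h2, Complex.real_smul, Complex.real_smul]
  conv_rhs => rw [← Complex.re_add_im ζ]
  ring

/-- the leaf -/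
theorem exists_leaf {D : Data} {S : ICur D} {th : R4 → R4 →L[ℝ] ℂ} (hF : Form S th) :
    ∃ A : Leaf, A.L = S.supp ∧ ∀ x ∈ A.L, A.Y x = D.J x (A.X x) := by
  choose! u k ε h hR hh h0 hth using hF.hol
  set X : R4 → R4 := fun x => fderiv ℝ (u x) 0 ((h x 0)⁻¹) with hX
  have hcd : ∀ x ∈ S.supp, ∀ z ∈ ball (0 : ℂ) 2, ContDiffAt ℝ ∞ (u x) z := fun x hx z hz =>
    (hR x hx).disc.smooth.contDiffAt (isOpen_ball.mem_nhds hz)
  have h02 : (0 : ℂ) ∈ ball (0 : ℂ) 2 := mem_ball_self (by norm_num)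
  have h12 : ball (0 : ℂ) 1 ⊆ ball 0 2 := ball_subset_ball (by norm_num)
  -- characterisation of `X`
  have hchar : ∀ x ∈ S.supp, ∀ (v : ℂ → R4) (s : ℂ) (T : ℂ →L[ℝ] R4), HasFDerivAt v T s →
      v s = x → (∀ᶠ z in 𝓝 s, v z ∈ S.supp) → ∀ ζ, th x (T ζ) = 1 → T ζ = X x := by
    intro x hx v s T hv hvs hvC ζ hζ
    have hu0 : u x 0 = x := (hR x hx).zero
    obtain ⟨ζ', hζ'⟩ := tangent ((hcd x hx 0 h02).of_le (by simp))
      (fun ζ hz => (hR x hx).fderiv_inj h02 hz) (fun δ hδ => (hR x hx).image_mem hδ) hv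
      (by rw [hvs, hu0]) hvC ζ
    have h1 := hth x hx 0 (mem_ball_self one_pos)
    rw [hu0] at h1
    have h2 := th_val h1.1 h1.2 ζ'
    rw [← hζ', hζ] at h2
    have h3 : ζ' = (h x 0)⁻¹ := eq_inv_of_mul_eq_one_right h2.symm
    rw [hζ', h3]
  have hXth : ∀ x ∈ S.supp, th x (X x) = 1 := by
    intro x hx
    have hu0 : u x 0 = x := (hR x hx).zero
    have h1 := hth x hx 0 (mem_ball_self one_pos)
    rw [hu0] at h1
    simp only [hX]
    rw [th_val h1.1 h1.2, mul_inv_cancel₀ (h0 x hx)]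
  -- values near `x` are in the support
  have hloc : ∀ x ∈ S.supp, ∃ δ > 0, δ ≤ 1 ∧ ∀ z ∈ ball (0 : ℂ) δ, u x z ∈ S.supp := by
    intro x hx
    have hu0 : u x 0 = x := (hR x hx).zero
    have h1 : ContinuousAt (u x) 0 := (hcd x hx 0 h02).continuousAt
    have h2 : ∀ᶠ z in 𝓝 (0 : ℂ), u x z ∈ ball x (ε x) :=
      h1.eventually (by rw [hu0]; exact ball_mem_nhds _ (hR x hx).pos)
    obtain ⟨δ, hδ, h3⟩ := Metric.eventually_nhds_iff_ball.1 h2
    refine ⟨min δ 1, lt_min hδ one_pos, min_le_right _ _, fun z hz => ?_⟩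
    exact ((hR x hx).supp _ (h3 z (ball_subset_ball (min_le_left _ _) hz))).2
      ⟨z, ball_subset_ball (min_le_right _ _) hz, rfl⟩
  have hXper : ∀ k : Fin 4 → ℤ, ∀ x ∈ S.supp, X (tr k x) = X x := by
    intro n x hx
    obtain ⟨δ, hδ, hδ1, hm⟩ := hloc x hx
    have hu0 : u x 0 = x := (hR x hx).zero
    have h1 : HasFDerivAt (fun z => tr n (u x z)) (fderiv ℝ (u x) 0) 0 := by
      have h2 : (fun z => tr n (u x z)) = fun z => u x z + fun i => (n i : ℝ) :=
        funext fun z => tr_eq _ _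
      rw [h2]
      exact (((hcd x hx 0 h02).differentiableAt (by simp)).hasFDerivAt).add_const _
    refine (hchar (tr n x) (supp_tr S hx n) _ 0 _ h1 (by rw [hu0]) ?_ _ ?_).symm
    · filter_upwards [ball_mem_nhds (0 : ℂ) hδ] with z hz
      exact supp_tr S (hm z hz) n
    · rw [hF.per x hx n]
      exact hXth x hx
  have hJper : ∀ (n : Fin 4 → ℤ) (x : R4), D.J (tr n x) = D.J x := fun n x => D.J_per n x
  refine ⟨⟨S.supp, X, fun x => D.J x (X x), fun _ => 0, 0, fun k x hx => supp_tr S hx k, hXper,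
    ?_, fun _ _ _ => rfl, ?_, ?_, ?_⟩, rfl, fun _ _ => rfl⟩
  · intro n x hx
    show D.J (tr n x) (X (tr n x)) = D.J x (X x)
    rw [hXper n x hx, hJper]
  · -- linear independence
    intro x hx v hv
    have hu0 : u x 0 = x := (hR x hx).zero
    rw [cb_apply] at hv
    have h1 : D.J x (X x) = fderiv ℝ (u x) 0 (Complex.I * (h x 0)⁻¹) := by
      have := (hR x hx).J_fderiv h02 ((h x 0)⁻¹)
      rwa [hu0] at this
    rw [h1] at hv
    simp only [hX] at hv
    rw [← map_smul, ← map_smul, ← map_add] at hv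
    have h2 := (hR x hx).fderiv_inj h02 hv
    have h3 : ((v.1 : ℂ) + v.2 * Complex.I) * (h x 0)⁻¹ = 0 := by
      rw [Complex.real_smul, Complex.real_smul] at h2
      linear_combination h2
    rcases mul_eq_zero.1 h3 with h4 | h4
    · have h5 := congrArg Complex.re h4
      have h6 := congrArg Complex.im h4
      simp at h5 h6
      ext
      · simpa using h5
      · simpa using h6
    · exact absurd h4 (inv_ne_zero (h0 x hx))
  · -- charts
    intro x hx
    have hu0 : u x 0 = x := (hR x hx).zero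
    obtain ⟨δ, hδ, hδ1, hm⟩ := hloc x hx
    -- the primitive
    obtain ⟨H, hH0, hH⟩ : ∃ H : ℂ → ℂ, H 0 = 0 ∧ ∀ z ∈ ball (0 : ℂ) 1, HasDerivAt H (h x z) z := by
      obtain ⟨H, hH⟩ := (hh x hx).isExactOn_ball
      refine ⟨fun z => H z - H 0, sub_self _, fun z hz => ?_⟩
      exact (hH z hz).sub_const _
    have hHd : DifferentiableOn ℂ H (ball 0 1) := fun z hz =>
      (hH z hz).differentiableAt.differentiableWithinAt
    have hHc : ContDiffAt ℂ 1 H 0 :=
      ((hHd.contDiffOn isOpen_ball).contDiffAt (isOpen_ball.mem_nhds (mem_ball_self one_pos)))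
    set E : ℂ ≃L[ℂ] ℂ := ContinuousLinearEquiv.unitsEquivAut ℂ (Units.mk0 (h x 0) (h0 x hx)) with hE
    have hHf : HasFDerivAt H (E : ℂ →L[ℂ] ℂ) 0 := by
      have h1 := (hH 0 (mem_ball_self one_pos)).hasFDerivAt
      have h2 : (E : ℂ →L[ℂ] ℂ) = ContinuousLinearMap.toSpanSingleton ℂ (h x 0) := by
        refine ContinuousLinearMap.ext fun y => ?_
        simp [hE]
      rw [h2]
      exact h1
    have hst : HasStrictFDerivAt H (E : ℂ →L[ℂ] ℂ) 0 := hHc.hasStrictFDerivAt' hHf (by simp)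
    set Q : ℂ → ℂ := hHc.localInverse hHf (by simp) with hQ
    have hQs : ContDiffAt ℂ 1 Q (H 0) := hHc.to_localInverse hHf (by simp)
    rw [hH0] at hQs
    have hl : ∀ᶠ z in 𝓝 (0 : ℂ), Q (H z) = z := hst.eventually_left_inverse
    have hr : ∀ᶠ w in 𝓝 (0 : ℂ), H (Q w) = w := by
      have := hst.eventually_right_inverse
      rw [hH0] at this
      exact this
    have hQ0 : Q 0 = 0 := by
      have := hl.self_of_nhds
      rwa [hH0] at this
    have hQd : ∀ᶠ w in 𝓝 (0 : ℂ), DifferentiableAt ℂ Q w := by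
      filter_upwards [hQs.eventually (by simp)] with y hy using hy.differentiableAt (by simp)
    have hhc : ContinuousAt (h x) 0 :=
      ((hh x hx).differentiableAt (isOpen_ball.mem_nhds (mem_ball_self one_pos))).continuousAt
    have hh0 : ∀ᶠ z in 𝓝 (0 : ℂ), h x z ≠ 0 := hhc.eventually_ne (h0 x hx)
    obtain ⟨δ', hδ', h1⟩ := Metric.eventually_nhds_iff_ball.1 hh0
    have hQb : ∀ᶠ w in 𝓝 (0 : ℂ), Q w ∈ ball (0 : ℂ) (min δ δ') :=
      hQs.continuousAt.eventually (by rw [hQ0]; exact ball_mem_nhds _ (lt_min hδ hδ'))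
    obtain ⟨r₀, hr₀, h2⟩ := Metric.eventually_nhds_iff_ball.1 (hr.and (hQd.and hQb))
    have hQmem : ∀ w ∈ ball (0 : ℂ) r₀, Q w ∈ ball (0 : ℂ) 1 := fun w hw =>
      ball_subset_ball ((min_le_left _ _).trans hδ1) (h2 w hw).2.2
    have hQder : ∀ w ∈ ball (0 : ℂ) r₀, HasDerivAt Q ((h x (Q w))⁻¹) w := by
      intro w hw
      have h3 := (h2 w hw).2.1.hasDerivAt
      have h4 := (hH (Q w) (hQmem w hw)).comp w h3
      have h5 : (H ∘ Q) =ᶠ[𝓝 w] id := by
        filter_upwards [isOpen_ball.mem_nhds hw] with y hy using (h2 y hy).1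
      have h6 := h4.unique ((hasDerivAt_id w).congr_of_eventuallyEq h5)
      have h7 : deriv Q w = (h x (Q w))⁻¹ := eq_inv_of_mul_eq_one_right h6
      rwa [h7] at h3
    -- the chart
    set zc : P2 →L[ℝ] ℂ := (Complex.equivRealProdCLM.symm : P2 →L[ℝ] ℂ) with hzc
    have hzca : ∀ v : P2, zc v = (v.1 : ℂ) + v.2 * Complex.I := by
      intro v
      show Complex.equivRealProdCLM.symm v = _
      apply Complex.ext <;> simp [Complex.equivRealProdCLM_symm_apply]
    have hzcn : ∀ v : P2, ‖zc v‖ ≤ 2 * ‖v‖ := by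
      intro v
      rw [hzca]
      have h3 : ‖(v.1 : ℂ)‖ ≤ ‖v‖ := by
        rw [Complex.norm_real]; exact norm_fst_le v
      have h4 : ‖(v.2 : ℂ) * Complex.I‖ ≤ ‖v‖ := by
        rw [norm_mul, Complex.norm_I, mul_one, Complex.norm_real]; exact norm_snd_le v
      linarith [norm_add_le (v.1 : ℂ) (v.2 * Complex.I)]
    have hzb : ∀ v ∈ ball (0 : P2) (r₀ / 2), zc v ∈ ball (0 : ℂ) r₀ := by
      intro v hv
      rw [mem_ball_zero_iff] at hv ⊢
      linarith [hzcn v]
    have hmem : ∀ v ∈ ball (0 : P2) (r₀ / 2), Q (zc v) ∈ ball (0 : ℂ) 2 := fun v hv =>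
      h12 (hQmem _ (hzb v hv))
    refine ⟨r₀ / 2, by positivity, fun v => u x (Q (zc v)), ?_, ?_, ?_, ?_, ?_⟩
    · have h3 : DifferentiableOn ℂ Q (ball 0 r₀) := fun w hw =>
        (hQder w hw).differentiableAt.differentiableWithinAt
      have h4 : ContDiffOn ℂ ∞ Q (ball 0 r₀) := h3.contDiffOn isOpen_ball
      have h5 : ContDiffOn ℝ ∞ Q (ball 0 r₀) := h4.restrict_scalars ℝ
      have h6 : ContDiffOn ℝ ∞ (fun v : P2 => Q (zc v)) (ball 0 (r₀ / 2)) :=
        h5.comp zc.contDiff.contDiffOn hzb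
      exact (hR x hx).disc.smooth.comp h6 hmem
    · show u x (Q (zc 0)) = x
      rw [map_zero, hQ0, hu0]
    · intro v hv
      have hz := hQmem _ (hzb v hv)
      have hzδ : Q (zc v) ∈ ball (0 : ℂ) δ :=
        ball_subset_ball (min_le_left _ _) (h2 _ (hzb v hv)).2.2
      have hne : h x (Q (zc v)) ≠ 0 := h1 _ (ball_subset_ball (min_le_right _ _)
        (h2 _ (hzb v hv)).2.2)
      have hyS := hm _ hzδ
      refine ⟨hyS, ?_⟩
      have hud : HasFDerivAt (u x) (fderiv ℝ (u x) (Q (zc v))) (Q (zc v)) :=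
        ((hcd x hx _ (h12 hz)).differentiableAt (by simp)).hasFDerivAt
      have h3 := hth x hx _ hz
      have h4 : fderiv ℝ (u x) (Q (zc v)) ((h x (Q (zc v)))⁻¹) = X (u x (Q (zc v))) := by
        refine hchar _ hyS (u x) (Q (zc v)) _ hud rfl ?_ _ ?_
        · filter_upwards [isOpen_ball.mem_nhds hzδ] with z hz using hm z hz
        · rw [th_val h3.1 h3.2, mul_inv_cancel₀ hne]
      have h5 : HasFDerivAt Q ((ContinuousLinearMap.toSpanSingleton ℂ
          ((h x (Q (zc v)))⁻¹)).restrictScalars ℝ) (zc v) :=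
        (hQder _ (hzb v hv)).hasFDerivAt.restrictScalars ℝ
      have h6 := hud.comp v (h5.comp v zc.hasFDerivAt)
      refine h6.congr_fderiv ?_
      refine ContinuousLinearMap.ext fun w => ?_
      have h7 : D.J (u x (Q (zc v))) (X (u x (Q (zc v)))) =
          fderiv ℝ (u x) (Q (zc v)) (Complex.I * (h x (Q (zc v)))⁻¹) := by
        rw [← h4]
        exact (hR x hx).J_fderiv (h12 hz) _
      rw [cb_apply]
      show _ = w.1 • X (u x (Q (zc v))) + w.2 • D.J (u x (Q (zc v))) (X (u x (Q (zc v))))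
      rw [h7, ← h4, ← map_smul, ← map_smul, ← map_add]
      show fderiv ℝ (u x) (Q (zc v)) (zc w • (h x (Q (zc v)))⁻¹) = _
      congr 1
      rw [hzca, Complex.real_smul, Complex.real_smul, smul_eq_mul]
      ring
    · intro v _
      simp
    · intro ρ hρ _
      have h3 : ∀ᶠ z in 𝓝 (0 : ℂ), H z ∈ ball (0 : ℂ) ρ :=
        (hH 0 (mem_ball_self one_pos)).continuousAt.eventually
          (by rw [hH0]; exact ball_mem_nhds _ hρ)
      obtain ⟨η, hη, h4⟩ := Metric.eventually_nhds_iff_ball.1 (hl.and h3)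
      have h5 := (hR x hx).image_mem hη
      rw [hu0] at h5
      refine mem_of_superset h5 ?_
      rintro _ ⟨z, hz, rfl⟩
      refine ⟨((H z).re, (H z).im), ?_, ?_⟩
      · have h6 := (h4 z hz).2
        rw [mem_ball_zero_iff] at h6 ⊢
        rw [Prod.norm_def]
        exact lt_of_le_of_lt (max_le (Complex.abs_re_le_norm _) (Complex.abs_im_le_norm _)) h6
      · show u x (Q (zc ((H z).re, (H z).im))) = u x z
        rw [hzca]
        show u x (Q (((H z).re : ℂ) + (H z).im * Complex.I)) = u x z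
        rw [Complex.re_add_im, (h4 z hz).1]
  · intro c
    by_cases hc : 0 ≤ c
    · have : {x | x ∈ S.supp ∧ (0 : ℝ) ≤ c} = S.supp := by
        ext x; simp [hc]
      rw [this]
      exact supp_closed S
    · have : {x | x ∈ S.supp ∧ (0 : ℝ) ≤ c} = ∅ := by
        ext x; simp [hc]
      rw [this]
      exact isClosed_empty

/-- `TORI` -/
theorem TORI : TORI_statement := by
  intro D S th hF x hx
  obtain ⟨A, hA, hJ⟩ := exists_leaf hF
  have hx' : x ∈ A.L := by rw [hA]; exact hx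
  obtain ⟨T, hT⟩ := exists_tor A (by rw [hA]; exact supp_closed S) hJ hx'
  rw [← hA]
  exact ⟨T, hT⟩

end Vale.Agent.P247.H690.END
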