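import Vale.Agent.P247.H574.Sta2

/-!
# P247, package END: flat leaves

A flat leaf is a two dimensional leaf `L` in `ℝ⁴`, invariant under `ℤ⁴`, with commuting vector
fields `X`, `Y` (given by flat charts), an exhaustion function and finite area.
-/

open scoped ContDiff Topology
open Set MeasureTheory Filter Metric

noncomputable section

namespace Vale.Agent.P247.H690.END

open Vale.Agent.P247.H74 Vale.Agent.P247.H574

/-- `(a, b) ↦ a X + b Y` -/
def cb (X Y : R4) : P2 →L[ℝ] R4 :=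
  (ContinuousLinearMap.fst ℝ ℝ ℝ).smulRight X + (ContinuousLinearMap.snd ℝ ℝ ℝ).smulRight Y

theorem cb_apply (X Y : R4) (v : P2) : cb X Y v = v.1 • X + v.2 • Y := by
  simp [cb]

/-- the geometric part: a leaf with flat charts and an exhaustion function -/
structure Leaf where
  L : Set R4
  X : R4 → R4
  Y : R4 → R4
  h : R4 → ℝ
  K : ℝ
  inv : ∀ k : Fin 4 → ℤ, ∀ x ∈ L, tr k x ∈ L
  perX : ∀ k : Fin 4 → ℤ, ∀ x ∈ L, X (tr k x) = X x
  perY : ∀ k : Fin 4 → ℤ, ∀ x ∈ L, Y (tr k x) = Y x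
  perh : ∀ k : Fin 4 → ℤ, ∀ x ∈ L, h (tr k x) = h x
  ind : ∀ x ∈ L, ∀ v : P2, cb (X x) (Y x) v = 0 → v = 0
  chart : ∀ x ∈ L, ∃ r > 0, ∃ g : P2 → R4, ContDiffOn ℝ ∞ g (ball 0 r) ∧ g 0 = x ∧
    (∀ v ∈ ball (0 : P2) r, g v ∈ L ∧ HasFDerivAt g (cb (X (g v)) (Y (g v))) v) ∧
    (∀ v ∈ ball (0 : P2) r, |h (g v) - h x| ≤ K * ‖v‖) ∧
    ∀ ρ, 0 < ρ → ρ ≤ r → g '' ball 0 ρ ∈ 𝓝[L] x
  closed : ∀ c, IsClosed {x | x ∈ L ∧ h x ≤ c}

/-- flat maps on `Ω` -/
def Flat (A : Leaf) (Ω : Set P2) (F : P2 → R4) : Prop :=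
  ∀ v ∈ Ω, F v ∈ A.L ∧ HasFDerivAt F (cb (A.X (F v)) (A.Y (F v))) v

theorem Flat.mono {A : Leaf} {Ω Ω' : Set P2} {F : P2 → R4} (h : Flat A Ω F) (hs : Ω' ⊆ Ω) :
    Flat A Ω' F := fun v hv => h v (hs hv)

theorem Flat.continuousAt {A : Leaf} {Ω : Set P2} {F : P2 → R4} (h : Flat A Ω F) {v : P2}
    (hv : v ∈ Ω) : ContinuousAt F v := (h v hv).2.continuousAt

theorem Flat.continuousOn {A : Leaf} {Ω : Set P2} {F : P2 → R4} (h : Flat A Ω F) :
    ContinuousOn F Ω := fun _ hv => (h.continuousAt hv).continuousWithinAt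

/-- shifting the parameter -/
theorem Flat.shift {A : Leaf} {Ω : Set P2} {F : P2 → R4} (h : Flat A Ω F) (c : P2) :
    Flat A {v | v + c ∈ Ω} fun v => F (v + c) := by
  intro v hv
  refine ⟨(h _ hv).1, ?_⟩
  have h1 := (h _ hv).2.comp v ((hasFDerivAt_id v).add_const c)
  simpa using h1

theorem tr_add (k l : Fin 4 → ℤ) (x : R4) : tr k (tr l x) = tr (k + l) x := by
  funext i
  simp [tr]
  ring

theorem tr_zero (x : R4) : tr 0 x = x := by
  funext i
  simp [tr]

theorem tr_eq (k : Fin 4 → ℤ) (x : R4) : tr k x = x + fun i => (k i : ℝ) := by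
  funext i
  simp [tr]

theorem tr_sub (k : Fin 4 → ℤ) (x y : R4) : tr k x - tr k y = x - y := by
  funext i
  simp [tr]

theorem tr_inj {k l : Fin 4 → ℤ} {x : R4} (h : tr k x = tr l x) : k = l := by
  funext i
  have := congrFun h i
  simpa [tr] using this

theorem tr_continuous (k : Fin 4 → ℤ) : Continuous (tr k) := by
  have : tr k = fun x => x + fun i => (k i : ℝ) := funext (tr_eq k)
  rw [this]
  fun_prop

/-- translating the values -/
theorem Flat.translate {A : Leaf} {Ω : Set P2} {F : P2 → R4} (h : Flat A Ω F) (k : Fin 4 → ℤ) :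
    Flat A Ω fun v => tr k (F v) := by
  intro v hv
  refine ⟨A.inv k _ (h v hv).1, ?_⟩
  rw [A.perX k _ (h v hv).1, A.perY k _ (h v hv).1]
  have h1 : (fun v => tr k (F v)) = fun v => F v + fun i => (k i : ℝ) :=
    funext fun v => tr_eq k _
  rw [h1]
  exact (h v hv).2.add_const _

/-- a linear left inverse -/
theorem exists_left (T : P2 →L[ℝ] R4) (hT : ∀ v, T v = 0 → v = 0) :
    ∃ S : R4 →L[ℝ] P2, ∀ v, S (T v) = v := by
  have hinj : Function.Injective T := by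
    intro a b hab
    have := hT (a - b) (by rw [map_sub, hab, sub_self])
    exact sub_eq_zero.1 this
  obtain ⟨S, hS⟩ := T.toLinearMap.exists_leftInverse_of_injective (LinearMap.ker_eq_bot.2 hinj)
  refine ⟨LinearMap.toContinuousLinearMap S, fun v => ?_⟩
  have := LinearMap.congr_fun hS v
  simpa using this

/-- a local left inverse of a smooth immersion -/
theorem exists_local_left {g : P2 → R4} {T : P2 →L[ℝ] R4} (hg : ContDiffAt ℝ ∞ g 0)
    (hT : HasFDerivAt g T 0) (hinj : ∀ v, T v = 0 → v = 0) :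
    ∃ P : R4 → P2, ∃ δ > 0, ∀ w ∈ ball (0 : P2) δ, P (g w) = w ∧ DifferentiableAt ℝ P (g w) := by
  obtain ⟨S, hS⟩ := exists_left T hinj
  set f : P2 → P2 := fun v => S (g v) with hf
  have hfs : ContDiffAt ℝ 1 f 0 := (S.contDiff.contDiffAt.comp _ hg).of_le (by simp)
  have hfd : HasFDerivAt f ((ContinuousLinearEquiv.refl ℝ P2 : P2 ≃L[ℝ] P2) : P2 →L[ℝ] P2) 0 := by
    have h1 := S.hasFDerivAt.comp (0 : P2) hT
    have h2 : S.comp T = ((ContinuousLinearEquiv.refl ℝ P2 : P2 ≃L[ℝ] P2) : P2 →L[ℝ] P2) := by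
      ext <;> simp [hS]
    rw [h2] at h1
    exact h1
  have hst : HasStrictFDerivAt f
      ((ContinuousLinearEquiv.refl ℝ P2 : P2 ≃L[ℝ] P2) : P2 →L[ℝ] P2) 0 :=
    hfs.hasStrictFDerivAt' hfd (by simp)
  set Q : P2 → P2 := hfs.localInverse hfd (by simp) with hQ
  have hQs : ContDiffAt ℝ 1 Q (f 0) := hfs.to_localInverse hfd (by simp)
  have h1 : ∀ᶠ w in 𝓝 (0 : P2), Q (f w) = w := hst.eventually_left_inverse
  have h2 : ∀ᶠ y in 𝓝 (f 0), DifferentiableAt ℝ Q y := by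
    have := hQs.eventually (by simp)
    filter_upwards [this] with y hy using hy.differentiableAt (by simp)
  have h3 : ∀ᶠ w in 𝓝 (0 : P2), DifferentiableAt ℝ Q (f w) :=
    hfd.continuousAt.eventually h2
  obtain ⟨δ, hδ, h4⟩ := Metric.eventually_nhds_iff_ball.1 (h1.and h3)
  refine ⟨fun x => Q (S x), δ, hδ, fun w hw => ⟨(h4 w hw).1, ?_⟩⟩
  exact DifferentiableAt.comp (g w) (h4 w hw).2 S.differentiableAt

/-- a flat map is locally the chart -/
theorem Flat.eventually_chart {A : Leaf} {Ω : Set P2} {F : P2 → R4} (hF : Flat A Ω F) (hΩ : IsOpen Ω)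
    {v₀ : P2} (hv₀ : v₀ ∈ Ω) {r : ℝ} (hr : 0 < r) {g : P2 → R4} (hg : ContDiffOn ℝ ∞ g (ball 0 r))
    (hg0 : g 0 = F v₀)
    (hgf : ∀ v ∈ ball (0 : P2) r, g v ∈ A.L ∧ HasFDerivAt g (cb (A.X (g v)) (A.Y (g v))) v)
    (hgn : ∀ ρ, 0 < ρ → ρ ≤ r → g '' ball 0 ρ ∈ 𝓝[A.L] (F v₀)) :
    ∀ᶠ v in 𝓝 v₀, F v = g (v - v₀) := by
  have h0 : (0 : P2) ∈ ball (0 : P2) r := mem_ball_self hr
  have hgat : ContDiffAt ℝ ∞ g 0 := hg.contDiffAt (isOpen_ball.mem_nhds h0)
  have hinj := A.ind (g 0) (hgf 0 h0).1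
  obtain ⟨P, δ, hδ, hP⟩ := exists_local_left hgat (hgf 0 h0).2 hinj
  set ρ := min δ r with hρ
  have hρ0 : 0 < ρ := lt_min hδ hr
  -- near `v₀` the map `F` takes values in the image of the small ball
  have h1 : ∀ᶠ v in 𝓝 v₀, F v ∈ g '' ball 0 ρ := by
    have h2 : Tendsto F (𝓝 v₀) (𝓝[A.L] (F v₀)) := by
      refine tendsto_nhdsWithin_iff.2 ⟨hF.continuousAt hv₀, ?_⟩
      filter_upwards [hΩ.mem_nhds hv₀] with v hv using (hF v hv).1
    exact h2 (hgn ρ hρ0 (min_le_right _ _))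
  obtain ⟨s, hs, h2⟩ := Metric.eventually_nhds_iff_ball.1
    (h1.and (hΩ.mem_nhds hv₀ : ∀ᶠ v in 𝓝 v₀, v ∈ Ω))
  set w : P2 → P2 := fun v => P (F v) with hw
  have hw1 : ∀ v ∈ ball v₀ s, w v ∈ ball (0 : P2) ρ ∧ g (w v) = F v := by
    intro v hv
    obtain ⟨u, hu, huv⟩ := (h2 v hv).1
    have h3 : w v = u := by
      simp only [hw]
      rw [← huv]
      exact (hP u (ball_subset_ball (min_le_left _ _) hu)).1
    rw [h3]
    exact ⟨hu, huv⟩
  have hwd : ∀ v ∈ ball v₀ s, HasFDerivAt w (ContinuousLinearMap.id ℝ P2) v := by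
    intro v hv
    obtain ⟨h3, h4⟩ := hw1 v hv
    have h5 : DifferentiableAt ℝ P (F v) := by
      rw [← h4]
      exact (hP _ (ball_subset_ball (min_le_left _ _) h3)).2
    have h6 : HasFDerivAt F (cb (A.X (F v)) (A.Y (F v))) v := (hF v (h2 v hv).2).2
    have h7 : HasFDerivAt w ((fderiv ℝ P (F v)).comp (cb (A.X (F v)) (A.Y (F v)))) v :=
      h5.hasFDerivAt.comp v h6
    have h8 := (hgf (w v) (ball_subset_ball (min_le_right _ _) h3)).2.comp v h7
    have h9 : (g ∘ w) =ᶠ[𝓝 v] F := by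
      filter_upwards [isOpen_ball.mem_nhds hv] with u hu using (hw1 u hu).2
    have h10 := h8.unique (h6.congr_of_eventuallyEq h9)
    rw [h4] at h10
    have h11 : (fderiv ℝ P (F v)).comp (cb (A.X (F v)) (A.Y (F v)))
        = ContinuousLinearMap.id ℝ P2 := by
      refine ContinuousLinearMap.ext fun u => ?_
      have h12 := congrArg (fun T : P2 →L[ℝ] R4 => T u) h10
      simp only [ContinuousLinearMap.comp_apply] at h12
      have h13 := A.ind (F v) (hF v (h2 v hv).2).1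
        (fderiv ℝ P (F v) (cb (A.X (F v)) (A.Y (F v)) u) - u) (by rw [map_sub, h12, sub_self])
      simpa using sub_eq_zero.1 h13
    rw [h11] at h7
    exact h7
  have hconst : ∀ v ∈ ball v₀ s, w v = v - v₀ := by
    intro v hv
    have h3 : ∀ u ∈ ball v₀ s, HasFDerivWithinAt (fun u => w u - u) (0 : P2 →L[ℝ] P2) (ball v₀ s) u := by
      intro u hu
      have := (hwd u hu).sub (hasFDerivAt_id u)
      rw [sub_self] at this
      exact this.hasFDerivWithinAt
    have h4 := (convex_ball v₀ s).is_const_of_fderivWithin_eq_zero (𝕜 := ℝ)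
      (fun u hu => (h3 u hu).differentiableWithinAt)
      (fun u hu => (h3 u hu).fderivWithin (isOpen_ball.uniqueDiffWithinAt hu)) hv (mem_ball_self hs)
    have h5 : w v₀ = 0 := by
      simp only [hw]
      rw [← hg0]
      exact (hP 0 (mem_ball_self hδ)).1
    simp only [h5] at h4
    rw [sub_eq_iff_eq_add] at h4
    rw [h4]
    abel
  filter_upwards [isOpen_ball.mem_nhds (mem_ball_self hs)] with v hv
  rw [← hconst v hv, (hw1 v hv).2]

/-- uniqueness of flat maps -/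
theorem Flat.eqOn {A : Leaf} {Ω : Set P2} {F G : P2 → R4} (hF : Flat A Ω F) (hG : Flat A Ω G)
    (hΩ : IsOpen Ω) (hc : IsPreconnected Ω) {v₀ : P2} (hv₀ : v₀ ∈ Ω) (h0 : F v₀ = G v₀) :
    EqOn F G Ω := by
  have hloc : ∀ v ∈ Ω, F v = G v → ∀ᶠ u in 𝓝 v, F u = G u := by
    intro v hv hvv
    obtain ⟨r, hr, g, hg, hg0, hgf, -, hgn⟩ := A.chart (F v) (hF v hv).1
    have h1 := hF.eventually_chart hΩ hv hr hg hg0 hgf hgn
    have h2 := hG.eventually_chart hΩ hv hr hg (by rw [hg0, hvv]) hgf (by rw [← hvv]; exact hgn)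
    filter_upwards [h1, h2] with u h3 h4
    rw [h3, h4]
  set U : Set P2 := {v | ∀ᶠ u in 𝓝 v, F u = G u} with hU
  have hUo : IsOpen U := by
    rw [isOpen_iff_mem_nhds]
    intro v hv
    exact eventually_eventually_nhds.2 hv
  have hsub : Ω ⊆ U := by
    refine hc.subset_of_closure_inter_subset hUo ⟨v₀, hv₀, hloc v₀ hv₀ h0⟩ ?_
    rintro v ⟨hv, hvΩ⟩
    refine hloc v hvΩ ?_
    have h1 : Tendsto F (𝓝 v) (𝓝 (F v)) := hF.continuousAt hvΩ
    have h2 : Tendsto G (𝓝 v) (𝓝 (G v)) := hG.continuousAt hvΩ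
    have h3 : ∃ᶠ u in 𝓝 v, F u = G u := by
      rw [mem_closure_iff_frequently] at hv
      exact hv.mono fun u hu => hu.self_of_nhds
    by_contra hne
    have h4 : ∀ᶠ u in 𝓝 v, F u ≠ G u := by
      have h5 := (h1.prodMk_nhds h2).eventually
        ((isClosed_diagonal (X := R4)).isOpen_compl.mem_nhds (show (F v, G v) ∈ _ from hne))
      filter_upwards [h5] with u hu using hu
    exact (h3.and_eventually h4).exists.elim fun u hu => hu.2 hu.1
  exact fun v hv => (hsub hv).self_of_nhds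

/-- Lipschitz bound for the exhaustion function -/
theorem Flat.lip {A : Leaf} {Ω : Set P2} {F : P2 → R4} (hF : Flat A Ω F) (hΩ : IsOpen Ω)
    (hc : Convex ℝ Ω) {v w : P2} (hv : v ∈ Ω) (hw : w ∈ Ω) :
    A.h (F w) ≤ A.h (F v) + A.K * ‖w - v‖ := by
  -- local bound
  have hloc : ∀ u ∈ Ω, ∀ᶠ u' in 𝓝 u, |A.h (F u') - A.h (F u)| ≤ A.K * ‖u' - u‖ := by
    intro u hu
    obtain ⟨r, hr, g, hg, hg0, hgf, hgh, hgn⟩ := A.chart (F u) (hF u hu).1
    have h1 := hF.eventually_chart hΩ hu hr hg hg0 hgf hgn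
    filter_upwards [h1, isOpen_ball.mem_nhds (mem_ball_self hr)] with u' h2 h3
    rw [h2]
    refine hgh (u' - u) ?_
    rw [mem_ball_zero_iff, ← dist_eq_norm]
    exact h3
  set p : ℝ → P2 := fun t => v + t • (w - v) with hp
  have hpc : Continuous p := by fun_prop
  have hpm : ∀ t ∈ Icc (0 : ℝ) 1, p t ∈ Ω := fun t ht =>
    hc.add_smul_sub_mem hv hw ht
  have hpd : ∀ s t, ‖p s - p t‖ = |s - t| * ‖w - v‖ := by
    intro s t
    have : p s - p t = (s - t) • (w - v) := by simp only [hp]; module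
    rw [this, norm_smul, Real.norm_eq_abs]
  have hloc' : ∀ t ∈ Icc (0 : ℝ) 1, ∀ᶠ s in 𝓝 t,
      |A.h (F (p s)) - A.h (F (p t))| ≤ A.K * (|s - t| * ‖w - v‖) := by
    intro t ht
    filter_upwards [hpc.continuousAt.eventually (hloc (p t) (hpm t ht))] with s hs
    rwa [hpd] at hs
  have hcont : ContinuousOn (fun t => A.h (F (p t))) (Icc 0 1) := by
    intro t ht
    apply ContinuousAt.continuousWithinAt
    rw [Metric.continuousAt_iff']
    intro ε hε
    have h1 : Tendsto (fun s => A.K * (|s - t| * ‖w - v‖)) (𝓝 t) (𝓝 (A.K * (|t - t| * ‖w - v‖))) := by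
      apply Continuous.tendsto
      fun_prop
    rw [sub_self, abs_zero, zero_mul, mul_zero] at h1
    filter_upwards [hloc' t ht, h1.eventually (gt_mem_nhds hε)] with s h2 h3
    rw [Real.dist_eq]
    exact lt_of_le_of_lt h2 h3
  have key := image_le_of_liminf_slope_right_le_deriv_boundary (f := fun t => A.h (F (p t)))
    (a := 0) (b := 1) hcont (B := fun t => A.h (F v) + t * (A.K * ‖w - v‖))
    (B' := fun _ => A.K * ‖w - v‖) (by simp [hp]) (by fun_prop)
    (fun t _ => by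
      have := ((hasDerivAt_id t).mul_const (A.K * ‖w - v‖)).const_add (A.h (F v))
      simpa using this.hasDerivWithinAt)
    (fun t ht r hr => by
      apply Eventually.frequently
      have h1 := (hloc' t (Ico_subset_Icc_self ht)).filter_mono (nhdsWithin_le_nhds (s := Ioi t))
      filter_upwards [h1, self_mem_nhdsWithin] with s h2 h3
      have h4 : 0 < s - t := sub_pos.2 h3
      rw [slope_def_field, div_lt_iff₀ h4]
      calc A.h (F (p s)) - A.h (F (p t)) ≤ |A.h (F (p s)) - A.h (F (p t))| := le_abs_self _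
        _ ≤ A.K * (|s - t| * ‖w - v‖) := h2
        _ = (A.K * ‖w - v‖) * (s - t) := by rw [abs_of_pos h4]; ring
        _ < r * (s - t) := by gcongr)
    (right_mem_Icc.2 zero_le_one)
  simpa [hp] using key

end Vale.Agent.P247.H690.END
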