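import Vale.Agent.P247.H690.END.Basic
import Vale.Agent.P247.H515.B2

/-!
# P247, package END: the global flat map

Flat maps extend to the whole plane; their images mod `ℤ⁴` are open and closed in the leaf.
-/

open scoped ContDiff Topology
open Set MeasureTheory Filter Metric

noncomputable section

namespace Vale.Agent.P247.H690.END

open Vale.Agent.P247.H74 Vale.Agent.P247.H574

/-- charts have a uniform size on the sublevel sets of `h` -/
theorem uniform (A : Leaf) (c : ℝ) : ∃ r > 0, ∀ x ∈ A.L, A.h x ≤ c →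
    ∃ G : P2 → R4, Flat A (ball 0 r) G ∧ G 0 = x := by
  have hcpt : IsCompact ({x | x ∈ A.L ∧ A.h x ≤ c} ∩ Icc (0 : R4) 1) :=
    isCompact_Icc.inter_left (A.closed c)
  have key : ∃ r > 0, ∀ x ∈ {x | x ∈ A.L ∧ A.h x ≤ c} ∩ Icc (0 : R4) 1,
      ∃ G : P2 → R4, Flat A (ball 0 r) G ∧ G 0 = x := by
    refine hcpt.induction_on (p := fun s => ∃ r > 0, ∀ x ∈ s,
      ∃ G : P2 → R4, Flat A (ball 0 r) G ∧ G 0 = x) ⟨1, one_pos, by simp⟩ ?_ ?_ ?_
    · rintro s t hst ⟨r, hr, h⟩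
      exact ⟨r, hr, fun x hx => h x (hst hx)⟩
    · rintro s t ⟨r, hr, h⟩ ⟨r', hr', h'⟩
      refine ⟨min r r', lt_min hr hr', ?_⟩
      rintro x (hx | hx)
      · obtain ⟨G, hG, hG0⟩ := h x hx
        exact ⟨G, hG.mono (ball_subset_ball (min_le_left _ _)), hG0⟩
      · obtain ⟨G, hG, hG0⟩ := h' x hx
        exact ⟨G, hG.mono (ball_subset_ball (min_le_right _ _)), hG0⟩
    · rintro x ⟨⟨hx, -⟩, -⟩
      obtain ⟨r, hr, g, hg, hg0, hgf, -, hgn⟩ := A.chart x hx
      refine ⟨g '' ball 0 (r / 2), ?_, r / 2, by positivity, ?_⟩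
      · refine nhdsWithin_mono _ ?_ (hgn (r / 2) (by positivity) (by linarith))
        exact fun y hy => hy.1.1
      · rintro y ⟨w, hw, rfl⟩
        refine ⟨fun v => g (v + w), ?_, by simp⟩
        have h1 : Flat A (ball 0 r) g := hgf
        refine (h1.shift w).mono fun v hv => ?_
        rw [mem_ball_zero_iff] at hv hw
        show v + w ∈ ball 0 r
        rw [mem_ball_zero_iff]
        linarith [norm_add_le v w]
  obtain ⟨r, hr, h⟩ := key
  refine ⟨r, hr, fun x hx hxc => ?_⟩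
  obtain ⟨n, hn⟩ := H515.cover4 x
  have hn' : tr n x ∈ Icc (0 : R4) 1 := hn
  obtain ⟨G, hG, hG0⟩ := h (tr n x) ⟨⟨A.inv n x hx, by rw [A.perh n x hx]; exact hxc⟩, hn'⟩
  refine ⟨fun v => tr (-n) (G v), hG.translate (-n), ?_⟩
  show tr (-n) (G 0) = x
  rw [hG0, tr_add, neg_add_cancel, tr_zero]

/-- extension of a flat map to a larger ball -/
theorem extend {A : Leaf} {R r : ℝ} (hR : 0 < R) (hr : 0 < r) {F : P2 → R4}
    (hF : Flat A (ball 0 R) F) (hG : ∀ b ∈ ball (0 : P2) R, ∃ G, Flat A (ball 0 r) G ∧ G 0 = F b) :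
    ∃ F', Flat A (ball 0 (R + r / 2)) F' ∧ F' 0 = F 0 := by
  have hG' : ∀ b : P2, ∃ G, b ∈ ball (0 : P2) R → Flat A (ball b r) G ∧ G b = F b := by
    intro b
    by_cases hb : b ∈ ball (0 : P2) R
    · obtain ⟨G, h1, h2⟩ := hG b hb
      refine ⟨fun v => G (v - b), fun _ => ⟨?_, by simpa using h2⟩⟩
      have h3 := h1.shift (-b)
      simp only [← sub_eq_add_neg] at h3
      refine h3.mono fun v hv => ?_
      show v - b ∈ ball 0 r
      rw [mem_ball_zero_iff, ← dist_eq_norm]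
      exact hv
    · exact ⟨F, fun h => absurd h hb⟩
  choose G hG using hG'
  have hGF : ∀ b ∈ ball (0 : P2) R, ∀ v ∈ ball (0 : P2) R, v ∈ ball b r → G b v = F v := by
    intro b hb v hv hvb
    have hc : Convex ℝ (ball (0 : P2) R ∩ ball b r) := (convex_ball _ _).inter (convex_ball _ _)
    exact ((hG b hb).1.mono inter_subset_right).eqOn (hF.mono inter_subset_left)
      (isOpen_ball.inter isOpen_ball) hc.isPreconnected ⟨hb, mem_ball_self hr⟩ (hG b hb).2
      ⟨hv, hvb⟩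
  set lam : ℝ := R / (R + r / 2) with hlam
  have hRr : 0 < R + r / 2 := by positivity
  have hlam0 : 0 < lam := div_pos hR hRr
  have hlam1 : lam < 1 := (div_lt_one hRr).2 (by linarith)
  have hlamR : lam * (R + r / 2) = R := div_mul_cancel₀ _ hRr.ne'
  set β : P2 → P2 := fun v => lam • v with hβ
  have hβ1 : ∀ v ∈ ball (0 : P2) (R + r / 2), β v ∈ ball (0 : P2) R := by
    intro v hv
    rw [mem_ball_zero_iff] at hv ⊢
    simp only [hβ]
    rw [norm_smul, Real.norm_of_nonneg hlam0.le]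
    nlinarith [norm_nonneg v]
  have hβ2 : ∀ v ∈ ball (0 : P2) (R + r / 2), ‖v - β v‖ < r / 2 := by
    intro v hv
    rw [mem_ball_zero_iff] at hv
    have h1 : v - β v = (1 - lam) • v := by simp only [hβ]; module
    rw [h1, norm_smul, Real.norm_of_nonneg (by linarith)]
    have h2 : (1 - lam) * ‖v‖ < (1 - lam) * (R + r / 2) :=
      mul_lt_mul_of_pos_left hv (by linarith)
    linarith
  have hβ3 : ∀ v v', ‖β v - β v'‖ ≤ ‖v - v'‖ := by
    intro v v'
    have h1 : β v - β v' = lam • (v - v') := by simp only [hβ]; module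
    rw [h1, norm_smul, Real.norm_of_nonneg hlam0.le]
    nlinarith [norm_nonneg (v - v')]
  have key : ∀ v₀ ∈ ball (0 : P2) (R + r / 2), ∀ v ∈ ball (0 : P2) (R + r / 2),
      ‖v - v₀‖ < r / 2 → G (β v) v = G (β v₀) v := by
    intro v₀ hv₀ v hv hvv
    have hb := hβ1 v hv
    have hb₀ := hβ1 v₀ hv₀
    have h1 : β v ∈ ball (β v₀) r := by
      rw [mem_ball, dist_eq_norm]
      linarith [hβ3 v v₀]
    have h2 : v ∈ ball (β v) r := by
      rw [mem_ball, dist_eq_norm]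
      linarith [hβ2 v hv]
    have h3 : v ∈ ball (β v₀) r := by
      rw [mem_ball, dist_eq_norm]
      have : v - β v₀ = (v - v₀) + (v₀ - β v₀) := by abel
      rw [this]
      linarith [hβ2 v₀ hv₀, norm_add_le (v - v₀) (v₀ - β v₀)]
    have hc : Convex ℝ (ball (β v) r ∩ ball (β v₀) r) := (convex_ball _ _).inter (convex_ball _ _)
    exact ((hG _ hb).1.mono inter_subset_left).eqOn ((hG _ hb₀).1.mono inter_subset_right)
      (isOpen_ball.inter isOpen_ball) hc.isPreconnected ⟨mem_ball_self hr, h1⟩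
      ((hG _ hb).2.trans (hGF _ hb₀ _ hb h1).symm) ⟨h2, h3⟩
  refine ⟨fun v => G (β v) v, ?_, ?_⟩
  · intro v₀ hv₀
    have h1 : (fun v => G (β v) v) =ᶠ[𝓝 v₀] G (β v₀) := by
      filter_upwards [isOpen_ball.mem_nhds hv₀, ball_mem_nhds v₀ (half_pos hr)] with v hv hv'
      refine key v₀ hv₀ v hv ?_
      rwa [mem_ball, dist_eq_norm] at hv'
    have h2 : v₀ ∈ ball (β v₀) r := by
      rw [mem_ball, dist_eq_norm]
      linarith [hβ2 v₀ hv₀]
    obtain ⟨h3, h4⟩ := (hG _ (hβ1 v₀ hv₀)).1 v₀ h2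
    exact ⟨h3, h4.congr_of_eventuallyEq h1⟩
  · have h0 : β 0 = 0 := by simp [hβ]
    show G (β 0) 0 = F 0
    rw [h0]
    exact (hG 0 (mem_ball_self hR)).2

/-- the flat map on a large ball -/
theorem exists_ball (A : Leaf) {x : R4} (hx : x ∈ A.L) {R : ℝ} (_hR : 0 < R) :
    ∃ F, Flat A (ball 0 R) F ∧ F 0 = x := by
  set S : Set ℝ := {R | 0 < R ∧ ∃ F, Flat A (ball 0 R) F ∧ F 0 = x} with hS
  by_contra hcon
  have hbd : ∀ s ∈ S, s ≤ R := by
    rintro s ⟨hs, F, hF, hF0⟩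
    by_contra hlt
    push Not at hlt
    exact hcon ⟨F, hF.mono (ball_subset_ball hlt.le), hF0⟩
  have hne : S.Nonempty := by
    obtain ⟨r, hr, g, hg, hg0, hgf, -, -⟩ := A.chart x hx
    exact ⟨r, hr, g, hgf, hg0⟩
  obtain ⟨r, hr, hunif⟩ := uniform A (A.h x + |A.K| * R)
  obtain ⟨s, ⟨hs0, F, hF, hF0⟩, hs⟩ := exists_lt_of_lt_csSup hne
    (show sSup S - r / 2 < sSup S by linarith)
  have hsR : s ≤ R := hbd s ⟨hs0, F, hF, hF0⟩
  obtain ⟨F', hF', hF0'⟩ := extend hs0 hr hF (fun b hb => hunif (F b) (hF b hb).1 (by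
    have h1 := hF.lip isOpen_ball (convex_ball _ _) (mem_ball_self hs0) hb
    rw [hF0, sub_zero] at h1
    rw [mem_ball_zero_iff] at hb
    have h2 : A.K * ‖b‖ ≤ |A.K| * R := by
      calc A.K * ‖b‖ ≤ |A.K| * ‖b‖ := by gcongr; exact le_abs_self _
        _ ≤ |A.K| * R := by gcongr; linarith
    linarith))
  have h3 : s + r / 2 ∈ S := ⟨by positivity, F', hF', by rw [hF0', hF0]⟩
  have h4 : s + r / 2 ≤ sSup S := le_csSup ⟨R, hbd⟩ h3
  linarith

/-- the global flat map -/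
theorem exists_global (A : Leaf) {x : R4} (hx : x ∈ A.L) : ∃ F, Flat A univ F ∧ F 0 = x := by
  have h : ∀ R : ℝ, ∃ F, 0 < R → Flat A (ball 0 R) F ∧ F 0 = x := by
    intro R
    by_cases hR : 0 < R
    · obtain ⟨F, h1, h2⟩ := exists_ball A hx hR
      exact ⟨F, fun _ => ⟨h1, h2⟩⟩
    · exact ⟨fun _ => 0, fun h => absurd h hR⟩
  choose F hF using h
  refine ⟨fun v => F (‖v‖ + 1) v, ?_, (hF _ (by simp)).2⟩
  intro v₀ _
  have h1 : (fun v => F (‖v‖ + 1) v) =ᶠ[𝓝 v₀] F (‖v₀‖ + 2) := by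
    filter_upwards [ball_mem_nhds v₀ one_pos] with v hv
    rw [mem_ball, dist_eq_norm] at hv
    have hv1 : ‖v‖ + 1 < ‖v₀‖ + 2 := by
      have := norm_sub_norm_le v v₀
      linarith
    have hp : 0 < ‖v‖ + 1 := by positivity
    exact (hF _ hp).1.eqOn ((hF _ (by positivity)).1.mono (ball_subset_ball hv1.le)) isOpen_ball
      (convex_ball _ _).isPreconnected (mem_ball_self hp)
      ((hF _ hp).2.trans (hF _ (by positivity)).2.symm) (by rw [mem_ball_zero_iff]; linarith)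
  obtain ⟨h3, h4⟩ := (hF (‖v₀‖ + 2) (by positivity)).1 v₀ (by rw [mem_ball_zero_iff]; linarith)
  refine ⟨?_, ?_⟩
  · rw [h1.self_of_nhds]; exact h3
  · rw [h1.self_of_nhds]; exact h4.congr_of_eventuallyEq h1

/-- a flat map is equal to the chart on the common ball -/
theorem Flat.eq_chart {A : Leaf} {F : P2 → R4} (hF : Flat A univ F) {v₀ : P2} {r : ℝ} (hr : 0 < r)
    {g : P2 → R4} (hgf : Flat A (ball 0 r) g) (hg0 : g 0 = F v₀) :
    ∀ v ∈ ball v₀ r, F v = g (v - v₀) := by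
  have h1 : Flat A (ball v₀ r) fun v => g (v - v₀) := by
    have h3 := hgf.shift (-v₀)
    simp only [← sub_eq_add_neg] at h3
    refine h3.mono fun v hv => ?_
    show v - v₀ ∈ ball 0 r
    rw [mem_ball_zero_iff, ← dist_eq_norm]
    exact hv
  exact (hF.mono (subset_univ _)).eqOn h1 isOpen_ball (convex_ball _ _).isPreconnected
    (mem_ball_self hr) (by simp [hg0])

theorem Flat.contDiff {A : Leaf} {F : P2 → R4} (hF : Flat A univ F) : ContDiff ℝ ∞ F := by
  rw [contDiff_iff_contDiffAt]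
  intro v₀
  obtain ⟨r, hr, g, hg, hg0, hgf, -, -⟩ := A.chart (F v₀) (hF v₀ (mem_univ _)).1
  have h1 := hF.eq_chart hr hgf hg0
  have h2 : ContDiffAt ℝ ∞ (fun v => g (v - v₀)) v₀ := by
    have h3 : ContDiffAt ℝ ∞ g (v₀ - v₀) := by
      rw [sub_self]
      exact hg.contDiffAt (ball_mem_nhds _ hr)
    exact ContDiffAt.comp (g := g) (f := fun v : P2 => v - v₀) v₀ h3
      (contDiffAt_id.sub contDiffAt_const)
  exact h2.congr_of_eventuallyEq (by
    filter_upwards [ball_mem_nhds v₀ hr] with v hv using h1 v hv)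

/-- the image of a small ball is a neighbourhood in the leaf -/
theorem Flat.image_mem {A : Leaf} {F : P2 → R4} (hF : Flat A univ F) (v₀ : P2) {ρ : ℝ}
    (hρ : 0 < ρ) : F '' ball v₀ ρ ∈ 𝓝[A.L] (F v₀) := by
  obtain ⟨r, hr, g, hg, hg0, hgf, -, hgn⟩ := A.chart (F v₀) (hF v₀ (mem_univ _)).1
  have h1 := hF.eq_chart hr hgf hg0
  refine mem_of_superset (hgn (min ρ r) (lt_min hρ hr) (min_le_right _ _)) ?_
  rintro _ ⟨w, hw, rfl⟩
  rw [mem_ball_zero_iff] at hw
  refine ⟨w + v₀, ?_, ?_⟩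
  · rw [mem_ball, dist_eq_norm, add_sub_cancel_right]
    exact lt_of_lt_of_le hw (min_le_left _ _)
  · rw [h1 (w + v₀) (by
      rw [mem_ball, dist_eq_norm, add_sub_cancel_right]
      exact lt_of_lt_of_le hw (min_le_right _ _)), add_sub_cancel_right]

/-- coincidences mod `ℤ⁴` propagate -/
theorem Flat.period {A : Leaf} {F : P2 → R4} (hF : Flat A univ F) {v w : P2} {k : Fin 4 → ℤ}
    (h : F v = tr k (F w)) (u : P2) : F (u + v) = tr k (F (u + w)) := by
  have h1 : Flat A univ fun u => F (u + v) := (hF.shift v).mono fun _ _ => mem_univ _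
  have h2 : Flat A univ fun u => tr k (F (u + w)) :=
    ((hF.shift w).mono fun _ _ => mem_univ _).translate k
  exact h1.eqOn h2 isOpen_univ isPreconnected_univ (mem_univ 0) (by simpa using h) (mem_univ u)

/-- the component of the leaf -/
def comp (F : P2 → R4) : Set R4 := {x | ∃ (k : Fin 4 → ℤ) (v : P2), x = tr k (F v)}

theorem comp_sub {A : Leaf} {F : P2 → R4} (hF : Flat A univ F) : comp F ⊆ A.L := by
  rintro _ ⟨k, v, rfl⟩
  exact A.inv k _ (hF v (mem_univ _)).1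

theorem comp_open {A : Leaf} {F : P2 → R4} (hF : Flat A univ F) {x : R4} (hx : x ∈ comp F) :
    comp F ∈ 𝓝[A.L] x := by
  obtain ⟨k, v, rfl⟩ := hx
  have h1 := (hF.translate k).image_mem v one_pos
  refine mem_of_superset h1 ?_
  rintro _ ⟨w, -, rfl⟩
  exact ⟨k, w, rfl⟩

theorem comp_closed {A : Leaf} {F : P2 → R4} (hF : Flat A univ F) {x : R4} (hxL : x ∈ A.L)
    (hx : x ∉ comp F) : (comp F)ᶜ ∈ 𝓝[A.L] x := by
  obtain ⟨r, hr, g, hg, hg0, hgf, -, hgn⟩ := A.chart x hxL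
  refine mem_of_superset (hgn r hr le_rfl) ?_
  rintro _ ⟨w, hw, rfl⟩ ⟨k, v, hkv⟩
  apply hx
  -- `g` and the translate of `F` agree
  have h1 : Flat A (ball 0 r) fun u => tr k (F (u + (v - w))) :=
    (((hF.shift (v - w)).mono fun _ _ => mem_univ _).translate k).mono (subset_univ _)
  have h2 := h1.eqOn hgf isOpen_ball (convex_ball _ _).isPreconnected hw
    (by simpa using hkv.symm) (mem_ball_self hr)
  refine ⟨k, 0 + (v - w), ?_⟩
  rw [← hg0]
  exact h2.symm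

/-- the whole leaf, if it is connected -/
theorem comp_eq {A : Leaf} (conn : ∀ S ⊆ A.L, S.Nonempty → (∀ k : Fin 4 → ℤ, ∀ x ∈ S, tr k x ∈ S) →
    (∀ x ∈ S, S ∈ 𝓝[A.L] x) → (∀ x ∈ A.L, x ∉ S → Sᶜ ∈ 𝓝[A.L] x) → S = A.L)
    {F : P2 → R4} (hF : Flat A univ F) : comp F = A.L := by
  refine conn (comp F) (comp_sub hF) ⟨F 0, 0, 0, (tr_zero _).symm⟩ ?_
    (fun x hx => comp_open hF hx) (fun x hx hxn => comp_closed hF hx hxn)
  rintro k _ ⟨l, v, rfl⟩
  exact ⟨k + l, v, tr_add _ _ _⟩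

/-- the group of periods -/
def per {A : Leaf} {F : P2 → R4} (hF : Flat A univ F) : AddSubgroup P2 where
  carrier := {w | ∃ k : Fin 4 → ℤ, F w = tr k (F 0)}
  zero_mem' := ⟨0, (tr_zero _).symm⟩
  add_mem' := by
    rintro v w ⟨k, hk⟩ ⟨l, hl⟩
    refine ⟨l + k, ?_⟩
    have h1 := hF.period hl v
    rw [h1, add_zero, hk, tr_add]
  neg_mem' := by
    rintro v ⟨k, hk⟩
    refine ⟨-k, ?_⟩
    have h1 := hF.period hk (-v)
    rw [neg_add_cancel, add_zero] at h1
    rw [h1, tr_add, neg_add_cancel, tr_zero]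

theorem mem_per {A : Leaf} {F : P2 → R4} (hF : Flat A univ F) {v w : P2} {k : Fin 4 → ℤ}
    (h : F v = tr k (F w)) : v - w ∈ per hF := by
  refine ⟨k, ?_⟩
  have h1 := hF.period h (-w)
  rw [neg_add_cancel, neg_add_eq_sub] at h1
  exact h1

theorem per_shift {A : Leaf} {F : P2 → R4} (hF : Flat A univ F) {w : P2} (hw : w ∈ per hF) :
    ∃ k : Fin 4 → ℤ, ∀ u, F (u + w) = tr k (F u) := by
  obtain ⟨k, hk⟩ := hw
  refine ⟨k, fun u => ?_⟩
  have := hF.period hk u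
  rwa [add_zero] at this

/-- the group of periods is discrete -/
theorem per_discrete {A : Leaf} {F : P2 → R4} (hF : Flat A univ F) :
    ∃ ρ > 0, ∀ w ∈ per hF, ‖w‖ < ρ → w = 0 := by
  obtain ⟨r, hr, g, hg, hg0, hgf, -, -⟩ := A.chart (F 0) (hF 0 (mem_univ _)).1
  have h0 : (0 : P2) ∈ ball (0 : P2) r := mem_ball_self hr
  obtain ⟨P, δ, hδ, hP⟩ := exists_local_left (hg.contDiffAt (isOpen_ball.mem_nhds h0))
    (hgf 0 h0).2 (A.ind _ (hgf 0 h0).1)
  have h1 := hF.eq_chart hr hgf hg0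
  obtain ⟨δ', hδ', h2⟩ := Metric.continuousAt_iff.1 (hF.continuousAt (mem_univ (0 : P2))) 1 one_pos
  refine ⟨min (min δ r) δ', lt_min (lt_min hδ hr) hδ', ?_⟩
  rintro w ⟨k, hk⟩ hw
  have hw1 : ‖w‖ < δ := lt_of_lt_of_le hw ((min_le_left _ _).trans (min_le_left _ _))
  have hw2 : ‖w‖ < r := lt_of_lt_of_le hw ((min_le_left _ _).trans (min_le_right _ _))
  have hw3 : ‖w‖ < δ' := lt_of_lt_of_le hw (min_le_right _ _)
  have h3 : dist (F w) (F 0) < 1 := h2 (by rwa [dist_zero_right])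
  have hk0 : k = 0 := by
    funext i
    rw [hk, dist_eq_norm, tr_eq] at h3
    simp only [add_sub_cancel_left] at h3
    have h4 := lt_of_le_of_lt (norm_le_pi_norm (fun i => (k i : ℝ)) i) h3
    simp only [Real.norm_eq_abs] at h4
    have h5 : |k i| < 1 := by exact_mod_cast h4
    exact Int.abs_lt_one_iff.1 h5
  rw [hk0, tr_zero] at hk
  have h6 : g w = g 0 := by
    have := h1 w (by rwa [mem_ball_zero_iff])
    rw [sub_zero] at this
    rw [← this, hk, hg0]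
  have h7 := (hP w (by rwa [mem_ball_zero_iff])).1
  have h8 := (hP 0 (mem_ball_self hδ)).1
  rw [← h7, h6, h8]

/-- if the leaf is compact mod `ℤ⁴` the periods are cobounded -/
theorem per_cobounded {A : Leaf} (hL : IsClosed A.L) {F : P2 → R4} (hF : Flat A univ F) :
    ∃ R : ℝ, ∀ v, ∃ w ∈ per hF, ‖v - w‖ ≤ R := by
  have hcl : IsClosed (comp F) := by
    rw [← isOpen_compl_iff, isOpen_iff_mem_nhds]
    intro x hx
    by_cases hxL : x ∈ A.L
    · have h1 := comp_closed hF hxL hx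
      rw [mem_nhdsWithin_iff_eventually] at h1
      filter_upwards [h1] with y hy hyc
      exact hy (comp_sub hF hyc) hyc
    · filter_upwards [hL.isOpen_compl.mem_nhds hxL] with y hy hyc
      exact hy (comp_sub hF hyc)
  have hcpt : IsCompact (comp F ∩ Icc (0 : R4) 1) := isCompact_Icc.inter_left hcl
  have key : ∃ R : ℝ, ∀ x ∈ comp F ∩ Icc (0 : R4) 1, ∃ (k : Fin 4 → ℤ) (v : P2), ‖v‖ ≤ R ∧
      x = tr k (F v) := by
    refine hcpt.induction_on (p := fun s => ∃ R : ℝ, ∀ x ∈ s, ∃ (k : Fin 4 → ℤ) (v : P2), ‖v‖ ≤ R ∧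
      x = tr k (F v)) ⟨0, by simp⟩ ?_ ?_ ?_
    · rintro s t hst ⟨R, h⟩
      exact ⟨R, fun x hx => h x (hst hx)⟩
    · rintro s t ⟨R, h⟩ ⟨R', h'⟩
      refine ⟨max R R', ?_⟩
      rintro x (hx | hx)
      · obtain ⟨k, v, h1, h2⟩ := h x hx
        exact ⟨k, v, h1.trans (le_max_left _ _), h2⟩
      · obtain ⟨k, v, h1, h2⟩ := h' x hx
        exact ⟨k, v, h1.trans (le_max_right _ _), h2⟩
    · rintro x ⟨⟨k, v, rfl⟩, -⟩
      have h1 := (hF.translate k).image_mem v one_pos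
      refine ⟨_, nhdsWithin_mono _ (inter_subset_left.trans (comp_sub hF)) h1, ‖v‖ + 1, ?_⟩
      rintro _ ⟨w, hw, rfl⟩
      refine ⟨k, w, ?_, rfl⟩
      rw [mem_ball, dist_eq_norm] at hw
      have := norm_sub_norm_le w v
      linarith
  obtain ⟨R, hR⟩ := key
  refine ⟨R, fun v => ?_⟩
  obtain ⟨n, hn⟩ := H515.cover4 (F v)
  have hn' : tr n (F v) ∈ Icc (0 : R4) 1 := hn
  obtain ⟨k, w, hw, hkw⟩ := hR _ ⟨⟨n, v, rfl⟩, hn'⟩
  refine ⟨v - w, ?_, by rwa [sub_sub_cancel]⟩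
  refine mem_per hF (k := -n + k) ?_
  rw [← tr_add, ← hkw, tr_add, neg_add_cancel, tr_zero]

end Vale.Agent.P247.H690.END
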