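import Vale.Agent.P247.H690.END.Core
import Vale.Agent.P247.H690.END.Sta

/-!
# P247, package END: from the global flat map to the torus
-/

open scoped ContDiff Topology
open Set MeasureTheory Filter Metric

noncomputable section

namespace Vale.Agent.P247.H690.END

open Vale.Agent.P247.H74 Vale.Agent.P247.H574

/-- an oriented basis of a discrete cobounded subgroup of the plane -/
theorem exists_basis (Γ : AddSubgroup P2) (hd : ∃ ρ > 0, ∀ w ∈ Γ, ‖w‖ < ρ → w = 0)
    (hc : ∃ R : ℝ, ∀ v, ∃ w ∈ Γ, ‖v - w‖ ≤ R) :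
    ∃ a b : P2, a ∈ Γ ∧ b ∈ Γ ∧ 0 < a.1 * b.2 - a.2 * b.1 ∧
      ∀ w ∈ Γ, ∃ m n : ℤ, w = (m : ℝ) • a + (n : ℝ) • b := by
  set L : Submodule ℤ P2 := AddSubgroup.toIntSubmodule Γ with hL
  have hmem : ∀ w, w ∈ L ↔ w ∈ Γ := fun w => Iff.rfl
  obtain ⟨ρ, hρ, hd⟩ := hd
  obtain ⟨R, hR⟩ := hc
  have hdisc : DiscreteTopology L := by
    apply discreteTopology_of_isOpen_singleton_zero
    rw [Metric.isOpen_iff]
    intro x hx
    rw [mem_singleton_iff] at hx
    subst hx
    refine ⟨ρ, hρ, fun y hy => ?_⟩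
    rw [mem_ball, dist_zero_right] at hy
    have := hd y.1 ((hmem _).1 y.2) hy
    rw [mem_singleton_iff]
    exact Subtype.ext this
  have hspan : Submodule.span ℝ (L : Set P2) = ⊤ := by
    by_contra hne
    obtain ⟨f, hf0, hf⟩ := Submodule.exists_le_ker_of_lt_top _ (lt_top_iff_ne_top.2 hne)
    apply hf0
    set fc : P2 →L[ℝ] ℝ := LinearMap.toContinuousLinearMap f with hfc
    have hb : ∀ v, |f v| ≤ ‖fc‖ * R := by
      intro v
      obtain ⟨w, hw, hvw⟩ := hR v
      have h1 : f w = 0 := hf (Submodule.subset_span ((hmem w).2 hw))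
      have h2 : f v = fc (v - w) := by
        show f v = f (v - w)
        rw [map_sub, h1, sub_zero]
      rw [h2]
      calc |fc (v - w)| ≤ ‖fc‖ * ‖v - w‖ := fc.le_opNorm _
        _ ≤ ‖fc‖ * R := by gcongr
    refine LinearMap.ext fun v => ?_
    by_contra hv
    have hv' : 0 < |f v| := abs_pos.2 hv
    have h3 := hb (((‖fc‖ * R + 1) / |f v|) • v)
    rw [map_smul, smul_eq_mul, abs_mul, abs_div, abs_abs, div_mul_cancel₀ _ hv'.ne'] at h3
    have h4 := le_abs_self (‖fc‖ * R + 1)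
    linarith
  have : IsZLattice ℝ L := ⟨hspan⟩
  have := ZLattice.module_free ℝ L
  have := ZLattice.module_finite ℝ L
  have hrank : Module.finrank ℤ L = 2 := by
    rw [ZLattice.rank ℝ L]
    simp
  let B : Module.Basis (Fin 2) ℤ L := Module.finBasisOfFinrankEq ℤ L hrank
  have hli : LinearIndependent ℝ (B.ofZLatticeBasis ℝ L) := (B.ofZLatticeBasis ℝ L).linearIndependent
  set a : P2 := (B 0 : P2) with ha
  set b : P2 := (B 1 : P2) with hb
  have hli2 : ∀ s t : ℝ, s • a + t • b = 0 → s = 0 ∧ t = 0 := by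
    have h1 := Fintype.linearIndependent_iff.1 hli
    intro s t hst
    have h2 := h1 ![s, t] (by
      rw [Fin.sum_univ_two]
      simpa using hst)
    exact ⟨by simpa using h2 0, by simpa using h2 1⟩
  have hgen : ∀ w ∈ Γ, ∃ m n : ℤ, w = (m : ℝ) • a + (n : ℝ) • b := by
    intro w hw
    refine ⟨B.repr ⟨w, hw⟩ 0, B.repr ⟨w, hw⟩ 1, ?_⟩
    have h1 := B.sum_repr ⟨w, hw⟩
    rw [Fin.sum_univ_two] at h1
    have h2 := congrArg (Subtype.val) h1
    simp only [Submodule.coe_add, Submodule.coe_smul] at h2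
    rw [Int.cast_smul_eq_zsmul, Int.cast_smul_eq_zsmul]
    exact h2.symm
  have hdet : a.1 * b.2 - a.2 * b.1 ≠ 0 := by
    intro h0
    have h1 := hli2 b.2 (-a.2) (by
      ext
      · simp; linarith
      · simp; ring)
    have h2 := hli2 b.1 (-a.1) (by
      ext
      · simp; ring
      · simp; linarith)
    have h3 : a = 0 := by
      ext
      · simpa using h2.2
      · simpa using h1.2
    have h4 := hli2 1 0 (by rw [h3]; simp)
    exact one_ne_zero h4.1
  rcases lt_or_gt_of_ne hdet with h | h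
  · refine ⟨b, a, (B 1).2, (B 0).2, by linarith, fun w hw => ?_⟩
    obtain ⟨m, n, h1⟩ := hgen w hw
    exact ⟨n, m, by rw [h1, add_comm]⟩
  · exact ⟨a, b, (B 0).2, (B 1).2, h, hgen⟩

/-- the torus -/
theorem exists_tor {D : Data} (A : Leaf) (hL : IsClosed A.L)
    (hJ : ∀ x ∈ A.L, A.Y x = D.J x (A.X x)) {x : R4} (hx : x ∈ A.L) :
    ∃ T : Tor D A.L, T.i 0 = x := by
  obtain ⟨F, hF, hF0⟩ := exists_global A hx
  obtain ⟨a, b, ha, hb, hdet, hgen⟩ := exists_basis (per hF) (per_discrete hF)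
    (per_cobounded hL hF)
  obtain ⟨n₀, hn₀⟩ := per_shift hF ha
  obtain ⟨n₁, hn₁⟩ := per_shift hF hb
  set M : P2 → P2 := fun p => p.1 • a + p.2 • b with hM
  set N : P2 → P2 := fun v => ((v.1 * b.2 - v.2 * b.1) / (a.1 * b.2 - a.2 * b.1),
    (a.1 * v.2 - a.2 * v.1) / (a.1 * b.2 - a.2 * b.1)) with hN
  have hMs : ContDiff ℝ ∞ M := by fun_prop
  have hNc : Continuous N := by fun_prop
  have hNM : ∀ p, N (M p) = p := by
    intro p
    have := hdet.ne'
    simp only [hN, hM]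
    ext
    · simp only [Prod.fst_add, Prod.snd_add, Prod.smul_fst, Prod.smul_snd, smul_eq_mul]
      rw [div_eq_iff this]
      ring
    · simp only [Prod.fst_add, Prod.snd_add, Prod.smul_fst, Prod.smul_snd, smul_eq_mul]
      rw [div_eq_iff this]
      ring
  have hMN : ∀ v, M (N v) = v := by
    intro v
    have := hdet.ne'
    simp only [hN, hM]
    ext
    · simp only [Prod.fst_add, Prod.smul_fst, smul_eq_mul]
      rw [div_mul_eq_mul_div, div_mul_eq_mul_div, ← add_div, div_eq_iff this]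
      ring
    · simp only [Prod.snd_add, Prod.smul_snd, smul_eq_mul]
      rw [div_mul_eq_mul_div, div_mul_eq_mul_div, ← add_div, div_eq_iff this]
      ring
  have hMd : ∀ p, HasFDerivAt M ((ContinuousLinearMap.fst ℝ ℝ ℝ).smulRight a +
      (ContinuousLinearMap.snd ℝ ℝ ℝ).smulRight b) p := by
    intro p
    exact ((ContinuousLinearMap.fst ℝ ℝ ℝ).smulRight a +
      (ContinuousLinearMap.snd ℝ ℝ ℝ).smulRight b).hasFDerivAt.congr_of_eventuallyEq
        (Filter.Eventually.of_forall fun q => by simp [hM])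
  have hid : ∀ p, HasFDerivAt (fun p => F (M p)) ((cb (A.X (F (M p))) (A.Y (F (M p)))).comp
      ((ContinuousLinearMap.fst ℝ ℝ ℝ).smulRight a +
        (ContinuousLinearMap.snd ℝ ℝ ℝ).smulRight b)) p :=
    fun p => (hF (M p) (mem_univ _)).2.comp p (hMd p)
  have hds : ∀ p, ds (fun p => F (M p)) p = a.1 • A.X (F (M p)) + a.2 • A.Y (F (M p)) := by
    intro p
    simp only [ds]
    rw [(hid p).fderiv]
    simp [cb_apply]
  have hdt : ∀ p, dt (fun p => F (M p)) p = b.1 • A.X (F (M p)) + b.2 • A.Y (F (M p)) := by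
    intro p
    simp only [dt]
    rw [(hid p).fderiv]
    simp [cb_apply]
  have ha0 : 0 < a.1 ^ 2 + a.2 ^ 2 := by
    rcases eq_or_lt_of_le (show 0 ≤ a.1 ^ 2 + a.2 ^ 2 by positivity) with h | h
    · have h1 : a.1 = 0 := by nlinarith [sq_nonneg a.1, sq_nonneg a.2]
      have h2 : a.2 = 0 := by nlinarith [sq_nonneg a.1, sq_nonneg a.2]
      rw [h1, h2] at hdet
      simp at hdet
    · exact h
  refine ⟨⟨fun p => F (M p), ![n₀, n₁], hF.contDiff.comp hMs,
    fun p => (hF (M p) (mem_univ _)).1, ?_, ?_, ?_, ?_, ?_, ?_⟩, ?_⟩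
  · intro p
    have h1 : M (p.1 + 1, p.2) = M p + a := by simp only [hM]; module
    show F (M (p.1 + 1, p.2)) = tr n₀ (F (M p))
    rw [h1, hn₀]
  · intro p
    have h1 : M (p.1, p.2 + 1) = M p + b := by simp only [hM]; module
    show F (M (p.1, p.2 + 1)) = tr n₁ (F (M p))
    rw [h1, hn₁]
  · intro p q k hpq
    obtain ⟨m, n, hmn⟩ := hgen _ (mem_per hF hpq)
    refine ⟨m, n, ?_⟩
    have h1 : M p = M (q.1 + m, q.2 + n) := by
      rw [sub_eq_iff_eq_add] at hmn
      rw [hmn]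
      simp only [hM]
      module
    rw [← hNM p, h1, hNM]
  · intro p h0
    rw [hds, ← cb_apply] at h0
    have := A.ind _ (hF (M p) (mem_univ _)).1 _ h0
    rw [this] at ha0
    simp at ha0
  · intro p
    refine ⟨(a.1 * b.1 + a.2 * b.2) / (a.1 ^ 2 + a.2 ^ 2),
      (a.1 * b.2 - a.2 * b.1) / (a.1 ^ 2 + a.2 ^ 2), div_pos hdet ha0, ?_⟩
    have hxm := (hF (M p) (mem_univ _)).1
    rw [hds, hdt, hJ _ hxm]
    show _ = _ • _ + _ • (D.J (F (M p))) _
    rw [map_add, map_smul, map_smul, D.J_sq]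
    have h1 : b.1 = (a.1 * b.1 + a.2 * b.2) / (a.1 ^ 2 + a.2 ^ 2) * a.1 -
        (a.1 * b.2 - a.2 * b.1) / (a.1 ^ 2 + a.2 ^ 2) * a.2 := by
      field_simp
      ring
    have h2 : b.2 = (a.1 * b.1 + a.2 * b.2) / (a.1 ^ 2 + a.2 ^ 2) * a.2 +
        (a.1 * b.2 - a.2 * b.1) / (a.1 ^ 2 + a.2 ^ 2) * a.1 := by
      field_simp
      ring
    set α := (a.1 * b.1 + a.2 * b.2) / (a.1 ^ 2 + a.2 ^ 2)
    set β := (a.1 * b.2 - a.2 * b.1) / (a.1 ^ 2 + a.2 ^ 2)
    rw [h1, h2]
    module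
  · intro p ρ hρ
    have h1 : M '' ball p ρ = N ⁻¹' ball p ρ := by
      ext v
      constructor
      · rintro ⟨q, hq, rfl⟩
        show N (M q) ∈ ball p ρ
        rwa [hNM]
      · intro hv
        exact ⟨N v, hv, hMN v⟩
    have h2 : IsOpen (M '' ball p ρ) := by
      rw [h1]
      exact isOpen_ball.preimage hNc
    obtain ⟨ρ', hρ', h3⟩ := Metric.isOpen_iff.1 h2 (M p) (mem_image_of_mem _ (mem_ball_self hρ))
    refine mem_of_superset (hF.image_mem (M p) hρ') ?_
    rintro _ ⟨v, hv, rfl⟩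
    obtain ⟨q, hq, rfl⟩ := h3 hv
    exact ⟨q, hq, rfl⟩
  · show F (M 0) = x
    rw [← hF0]
    simp [hM]

end Vale.Agent.P247.H690.END
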